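import Vale.Agent.P354CB.Ez

/-!
Common developments preserve the sides of the slice, and can be composed.
-/

open Set Filter Topology

namespace Vale.Agent.P354CB26

open Vale.Agent.P354n
open Vale.Agent.P354I (X Dat)
open Vale.Agent.P354CB

variable {d : Dat} {A B : LD d} {U : Set A.N.pt} {ψ : A.N.pt → B.N.pt}

/-- The image of a curve which lies in U. -/
theorem ll_map (K : LK1) (h : Com A B U ψ) {c : ℝ → A.N.pt} (k : Cv A.N (Icc 0 1) c)
    (m : MapsTo c (Icc 0 1) U) : LL B.N (ψ (c 0)) (ψ (c 1)) :=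
  ⟨fun t => ψ (c t), K.curve A.h.gh.st B.h.gh.st (uniqueDiffOn_Icc one_pos) k
    fun _ ht => h.lm _ (m ht), rfl, rfl⟩

theorem ll_dn (L : L1) (K : LK1) (h : Com A B U ψ) {w x : A.N.pt} (l : LL A.N w x) (hx : x ∈ U)
    (hw : w ∉ Pa A.N A.S) : LL B.N (ψ w) (ψ x) := by
  obtain ⟨c, k, rfl, rfl⟩ := l
  exact ll_map K h k (L.in_dn A.h.gh.st h.hull k hw hx)

theorem ll_up (L : L1) (K : LK1) (h : Com A B U ψ) {w x : A.N.pt} (l : LL A.N x w) (hx : x ∈ U)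
    (hw : w ∉ Fu A.N A.S) : LL B.N (ψ x) (ψ w) := by
  obtain ⟨c, k, rfl, rfl⟩ := l
  exact ll_map K h k (L.in_up A.h.gh.st h.hull k hx hw)

theorem map_s (h : Com A B U ψ) {x : A.N.pt} (hx : x ∈ U) (s : x ∈ A.S) : ψ x ∈ B.S := by
  obtain ⟨y, hy, rfl⟩ := s
  exact ⟨y, (h.sl y hy hx).1, (h.sl y hy hx).2.symm⟩

theorem cont_on (h : Com A B U ψ) : ContinuousOn ψ U :=
  fun x hx => (h.lm x hx).1.continuousWithinAt

theorem side_of (L : L1) (G : GONE) (K : LK1) : SIDE := by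
  intro d _ A B U ψ h x hx
  have GA : G1 A.N A.S := G _ _ A.h.gh
  have GB : G1 B.N B.S := G _ _ B.h.gh
  have f : x ∈ Fu A.N A.S → ψ x ∈ Fu B.N B.S := fun ⟨s, hs, l⟩ =>
    have n := (L1.s_fu GA hs).2
    ⟨ψ s, map_s h (h.hull.dn x hx s l n) hs, ll_dn L K h l hx n⟩
  have p : x ∈ Pa A.N A.S → ψ x ∈ Pa B.N B.S := fun ⟨s, hs, l⟩ =>
    have n := (L1.s_fu GA hs).1
    ⟨ψ s, map_s h (h.hull.up x hx s l n) hs, ll_up L K h l hx n⟩
  have s := map_s h hx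
  refine ⟨⟨s, fun k => ?_⟩, ⟨f, fun k => ?_⟩, p, fun k => ?_⟩ <;>
    rcases GA.tri x with a | a | a
  · exact a
  · exact absurd (f a) (L1.s_fu GB k).1
  · exact absurd (p a) (L1.s_fu GB k).2
  · exact absurd k (L1.s_fu GB (s a)).1
  · exact a
  · exact absurd (p a) (L.fu_pa B.h.gh.st GB k)
  · exact absurd k (L1.s_fu GB (s a)).2
  · exact absurd k (L.fu_pa B.h.gh.st GB (f a))
  · exact a

theorem trans_of (L : L1) (G : GONE) (K : LK1) : TRANS := by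
  intro d hd A B C U ψ V φ h k
  have sd := side_of L G K d hd A B U ψ h
  refine ⟨⟨(cont_on h).isOpen_inter_preimage h.hull.op k.hull.op, fun x hx w l n => ?_,
    fun x hx w l n => ?_⟩, fun x hx => K.comp A.h.gh.st B.h.gh.st C.h.gh.st (h.lm x hx.1)
      (k.lm _ hx.2), fun y hy m => ?_⟩
  · have hw := h.hull.dn x hx.1 w l n
    exact ⟨hw, k.hull.dn _ hx.2 _ (ll_dn L K h l hx.1 n) fun a => n ((sd w hw).2.2.2 a)⟩
  · have hw := h.hull.up x hx.1 w l n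
    exact ⟨hw, k.hull.up _ hx.2 _ (ll_up L K h l hx.1 n) fun a => n ((sd w hw).2.1.2 a)⟩
  · obtain ⟨a, b⟩ := h.sl y hy m.1
    have e : B.j y ∈ V := b ▸ m.2
    exact ⟨(k.sl y a e).1, (congrArg φ b).trans (k.sl y a e).2⟩

theorem side (Z : L0) : SIDE := side_of Z.l1 Z.l2.g1 Z.k1

theorem trans (Z : L0) : TRANS := trans_of Z.l1 Z.l2.g1 Z.k1

end Vale.Agent.P354CB26
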